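import Vale.Agent.P327.Full.Assemble
import Vale.Agent.P327.Full.Degree
import Vale.Agent.P327.Full.Link
import Vale.Agent.P327.Full.Exact
import Vale.Agent.P327.Full.Machine
import Vale.Agent.P327.Full.Remove
import Vale.Agent.P327.Full.Finish
import Vale.Agent.P327.Full.Atlas

/-! # P327: the Turing degrees are rigid -/

namespace Vale.Agent.Results.P327.Rigidity

open Vale.Agent.P327 Vale.Agent.P327.Full

/-- Every automorphism of the partial order of Turing degrees is the identity. -/
theorem result : ∀ e : Degree ≃ Degree, (∀ a b : Degree, DLe (e a) (e b) ↔ DLe a b) →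
    e = Equiv.refl Degree :=
  degree_rigid_of (rigid_of_pins atlas (exact_of trans_pin link_pin) (machine link_pin) link_pin
    (remove law avoid) (finish avoid))

end Vale.Agent.Results.P327.Rigidity
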